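import Vale.Agent.Lib.P160.RV.Defs

/-!
# P160, piece SS-5: the row bound for sign vectors from the subset-sum bound

If the number of subsets of `Fin n` with a prescribed sum of strictly increasing positive reals
is at most `C 2^n / n^(3/2)`, then a Rademacher sum whose weights have at least `D` distinct
nonzero absolute values takes each value at most `C 2^N / D^(3/2)` times.
-/

namespace Vale.Agent.Lib.P160.H67

open Finset
open Vale.Agent.Lib.P160

/-- `D` coordinates on which `w` is nonzero and `|w|` is strictly increasing. -/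
theorem exists_strictMono_abs {κ : Type} [Fintype κ] (w : κ → ℝ) (D : ℕ)
    (hD : D ≤ dabs w) :
    ∃ g : Fin D → κ, StrictMono (fun i => |w (g i)|) ∧ ∀ i, w (g i) ≠ 0 := by
  classical
  unfold dabs at hD
  obtain ⟨V, hV, hVc⟩ := Finset.exists_subset_card_eq hD
  have hmem : ∀ i : Fin D, ∃ j, w j ≠ 0 ∧ |w j| = V.orderEmbOfFin hVc i := by
    intro i
    have h1 : V.orderEmbOfFin hVc i ∈ V := Finset.orderEmbOfFin_mem V hVc i
    have h2 := hV h1
    simp only [mem_image, mem_filter, mem_univ, true_and] at h2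
    exact h2
  choose g hg1 hg2 using hmem
  refine ⟨g, ?_, hg1⟩
  intro i i' hii'
  show |w (g i)| < |w (g i')|
  rw [hg2, hg2]
  exact (V.orderEmbOfFin hVc).strictMono hii'

/-- Piece SS-5 with a fixed constant: the subset-sum bound implies the row bound. -/
theorem ss_row_of_const (C : ℝ)
    (hSS : ∀ (n : ℕ) (a : Fin n → ℝ), (∀ i, 0 < a i) → StrictMono a → ∀ x : ℝ,
      ((univ.filter fun S : Finset (Fin n) => ∑ i ∈ S, a i = x).card : ℝ) *
        ((n : ℝ) * Real.sqrt (n : ℝ)) ≤ C * 2 ^ n)
    (κ : Type) [Fintype κ] [DecidableEq κ] (w : κ → ℝ) (c : ℝ) (D : ℕ) (hD : D ≤ dabs w) :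
    ((univ.filter fun x : κ → ℤˣ => sdot x w = c).card : ℝ) * ((D : ℝ) * Real.sqrt (D : ℝ)) ≤
      C * 2 ^ Fintype.card κ := by
  classical
  obtain ⟨g, hgm, hg0⟩ := exists_strictMono_abs w D hD
  have hginj : Function.Injective g := by
    intro i i' h
    have h1 : (fun i => |w (g i)|) i = (fun i => |w (g i)|) i' := by simp [h]
    exact hgm.injective h1
  let a : Fin D → ℝ := fun i => |w (g i)|
  have hapos : ∀ i, 0 < a i := fun i => abs_pos.2 (hg0 i)
  let p : κ → Prop := fun j => ∃ i, g i = j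
  let r : (κ → ℤˣ) → ({j // ¬ p j} → ℤˣ) := fun x j => x j.1
  let P : (κ → ℤˣ) → Finset (Fin D) := fun x => univ.filter fun i => g i ∈ posSet w x
  let t : ({j // ¬ p j} → ℤˣ) → ℝ := fun y =>
    ∑ j ∈ univ.filter (fun j => ¬ p j), if h : p j then 0 else ((y ⟨j, h⟩ : ℤ) : ℝ) * w j
  have himg : (univ.filter p : Finset κ) = univ.image g := by
    ext j
    simp [p]
  -- decomposition of the signed sum
  have hsd : ∀ x : κ → ℤˣ, sdot x w = (2 * ∑ i ∈ P x, a i - ∑ i, a i) + t (r x) := by
    intro x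
    unfold sdot
    rw [← Finset.sum_filter_add_sum_filter_not univ p]
    congr 1
    · rw [himg, Finset.sum_image (fun i _ i' _ h => hginj h)]
      have hterm : ∀ i, ((x (g i) : ℤ) : ℝ) * w (g i) =
          2 * (if i ∈ P x then a i else 0) - a i := by
        intro i
        rw [term_eq w x (g i)]
        by_cases hi : g i ∈ posSet w x
        · have hiP : i ∈ P x := by simp [P, hi]
          rw [if_pos hi, if_pos hiP]
          show |w (g i)| = 2 * |w (g i)| - |w (g i)|
          ring
        · have hiP : i ∉ P x := by simp [P, hi]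
          rw [if_neg hi, if_neg hiP]
          show -|w (g i)| = 2 * 0 - |w (g i)|
          ring
      rw [Finset.sum_congr rfl (fun i _ => hterm i), Finset.sum_sub_distrib, ← Finset.mul_sum,
        Finset.sum_ite_mem, Finset.univ_inter]
    · apply Finset.sum_congr rfl
      intro j hj
      have hj' : ¬ p j := (mem_filter.1 hj).2
      rw [dif_neg hj']
  set F := univ.filter fun x : κ → ℤˣ => sdot x w = c with hF
  have h3 : (0 : ℝ) ≤ (D : ℝ) * Real.sqrt (D : ℝ) := by positivity
  -- every fibre of the restriction to the other coordinates is small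
  have hfib : ∀ y : {j // ¬ p j} → ℤˣ,
      ((F.filter fun x => r x = y).card : ℝ) * ((D : ℝ) * Real.sqrt (D : ℝ)) ≤ C * 2 ^ D := by
    intro y
    have h1 := hSS D a hapos hgm ((c - t y + ∑ i, a i) / 2)
    refine le_trans (mul_le_mul_of_nonneg_right
      (Nat.cast_le.2 (Finset.card_le_card_of_injOn P ?_ ?_)) h3) h1
    · intro x hx
      have hx' := mem_filter.1 (Finset.mem_coe.1 hx)
      have hxc : sdot x w = c := (mem_filter.1 hx'.1).2
      rw [hsd x, hx'.2] at hxc
      simp only [coe_filter, mem_univ, true_and, Set.mem_ofPred_eq]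
      linarith
    · intro x hx x' hx' hPP
      have hx1 := (mem_filter.1 (Finset.mem_coe.1 hx)).2
      have hx2 := (mem_filter.1 (Finset.mem_coe.1 hx')).2
      funext j
      by_cases hj : p j
      · obtain ⟨i, rfl⟩ := hj
        have e1 := term_eq w x (g i)
        have e2 := term_eq w x' (g i)
        have hiff : (g i ∈ posSet w x) ↔ (g i ∈ posSet w x') := by
          have hi : i ∈ P x ↔ i ∈ P x' := by rw [hPP]
          simpa [P] using hi
        have e3 : ((x (g i) : ℤ) : ℝ) * w (g i) = ((x' (g i) : ℤ) : ℝ) * w (g i) := by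
          rw [e1, e2]
          by_cases hh : g i ∈ posSet w x
          · rw [if_pos hh, if_pos (hiff.1 hh)]
          · rw [if_neg hh, if_neg (fun h' => hh (hiff.2 h'))]
        have e4 : ((x (g i) : ℤ) : ℝ) = ((x' (g i) : ℤ) : ℝ) := mul_right_cancel₀ (hg0 i) e3
        exact Units.ext (by exact_mod_cast e4)
      · exact congrFun (hx1.trans hx2.symm) ⟨j, hj⟩
  have hcard : F.card = ∑ y : {j // ¬ p j} → ℤˣ, (F.filter fun x => r x = y).card :=
    Finset.card_eq_sum_card_fiberwise (fun x _ => mem_univ (r x))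
  have hDle : D ≤ Fintype.card κ := by
    simpa using Fintype.card_le_of_injective g hginj
  have hpD : Fintype.card {j // p j} = D := by
    rw [Fintype.card_subtype, himg, Finset.card_image_of_injective _ hginj, Finset.card_univ,
      Fintype.card_fin]
  have hN : Fintype.card ({j // ¬ p j} → ℤˣ) * 2 ^ D = 2 ^ Fintype.card κ := by
    rw [Fintype.card_fun, Fintype.card_units_int, ← pow_add, Fintype.card_subtype_compl, hpD]
    congr 1
    omega
  have hN' : ((Fintype.card ({j // ¬ p j} → ℤˣ) : ℝ)) * 2 ^ D = 2 ^ Fintype.card κ := by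
    exact_mod_cast hN
  calc (F.card : ℝ) * ((D : ℝ) * Real.sqrt (D : ℝ))
      = ∑ y : {j // ¬ p j} → ℤˣ,
          ((F.filter fun x => r x = y).card : ℝ) * ((D : ℝ) * Real.sqrt (D : ℝ)) := by
        rw [hcard, Nat.cast_sum, Finset.sum_mul]
    _ ≤ ∑ _y : {j // ¬ p j} → ℤˣ, C * 2 ^ D := Finset.sum_le_sum (fun y _ => hfib y)
    _ = C * ((Fintype.card ({j // ¬ p j} → ℤˣ) : ℝ) * 2 ^ D) := by
        rw [Finset.sum_const, Finset.card_univ, nsmul_eq_mul]
        ring
    _ = C * 2 ^ Fintype.card κ := by rw [hN']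

/-- Piece SS-5: the row bound `ss_row` follows from the subset-sum bound (piece SS-4). -/
theorem ss_row_of_exists
    (hSS : ∃ C : ℝ, ∀ (n : ℕ) (a : Fin n → ℝ), (∀ i, 0 < a i) → StrictMono a → ∀ x : ℝ,
      ((univ.filter fun S : Finset (Fin n) => ∑ i ∈ S, a i = x).card : ℝ) *
        ((n : ℝ) * Real.sqrt (n : ℝ)) ≤ C * 2 ^ n) :
    ∃ C : ℝ, 0 < C ∧ ∀ (κ : Type) [Fintype κ] [DecidableEq κ] (w : κ → ℝ) (c : ℝ)
      (D : ℕ), D ≤ dabs w →
      ((univ.filter fun x : κ → ℤˣ => sdot x w = c).card : ℝ) * ((D : ℝ) * Real.sqrt (D : ℝ)) ≤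
        C * 2 ^ Fintype.card κ := by
  obtain ⟨C, hC⟩ := hSS
  refine ⟨max C 1, lt_of_lt_of_le one_pos (le_max_right _ _), ?_⟩
  intro κ _ _ w c D hD
  refine (ss_row_of_const C hC κ w c D hD).trans ?_
  exact mul_le_mul_of_nonneg_right (le_max_left _ _) (by positivity)

end Vale.Agent.Lib.P160.H67
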